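import Mathlib
import Vale.Agent.P050.Measure

/-!
Local Sidorenko inequality with a neighbourhood that depends only on the maximum degree.
-/

open Finset MeasureTheory
open Vale.Agent.P050

namespace Vale.Agent.Results.P050.LocalSidorenko

/-- If a symmetric kernel stays within a relative distance `1 / (600 Δ)` of its mean almost
everywhere, then every bipartite graph of maximum degree at most `Δ` satisfies the Sidorenko
inequality for it. -/
theorem result {V Ω : Type*} [Fintype V] [DecidableEq V] (H : SimpleGraph V) [DecidableRel H.Adj]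
    (hH : H.Colorable 2) (Δ : ℕ) (hdeg : ∀ v, H.degree v ≤ Δ)
    [MeasurableSpace Ω] (μ : Measure Ω) [IsProbabilityMeasure μ]
    (W : Ω → Ω → ℝ) (hWm : Measurable (Function.uncurry W)) (hsymm : ∀ a b, W a b = W b a)
    (hW : ∀ᵐ z ∂(μ.prod μ),
      |W z.1 z.2 - ∫ a, ∫ b, W a b ∂μ ∂μ| ≤ (∫ a, ∫ b, W a b ∂μ ∂μ) / (600 * (Δ : ℝ))) :
    (∫ a, ∫ b, W a b ∂μ ∂μ) ^ H.edgeFinset.card ≤
      ∫ x : V → Ω, ∏ e ∈ H.edgeFinset,
        Sym2.lift ⟨fun a b => W (x a) (x b), fun a b => hsymm (x a) (x b)⟩ e
          ∂(Measure.pi fun _ => μ) := by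
  classical
  set p := ∫ a, ∫ b, W a b ∂μ ∂μ with hp
  rcases Nat.eq_zero_or_pos Δ with hΔ | hΔ
  · have hE : H.edgeFinset = ∅ := by
      by_contra hne
      obtain ⟨e, he⟩ := nonempty_iff_ne_empty.mpr hne
      induction e using Sym2.ind with
      | _ a b =>
        have hab : H.Adj a b := SimpleGraph.mem_edgeFinset.mp he
        have := (H.degree_pos_iff_exists_adj a).mpr ⟨b, hab⟩
        have := hdeg a
        omega
    simp [hE]
  obtain ⟨c⟩ := hH
  let col : V → Bool := fun v => decide (c v = 1)
  have hcol : ∀ a b, H.Adj a b → col a ≠ col b := by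
    intro a b hab h
    apply c.valid hab
    have h' : (c a = 1) ↔ (c b = 1) := decide_eq_decide.mp h
    show c a = c b
    generalize c a = u at h' ⊢
    generalize c b = w at h' ⊢
    revert h'
    fin_cases u <;> fin_cases w <;> simp
  let E : Finset (V × V) := univ.filter (fun e => H.Adj e.1 e.2 ∧ col e.1 = false)
  have hmemE : ∀ e, e ∈ E ↔ H.Adj e.1 e.2 ∧ col e.1 = false := fun e => by simp [E]
  have hor : Oriented col E := by
    intro e he
    obtain ⟨hadj, h1⟩ := (hmemE e).mp he
    refine ⟨h1, ?_⟩
    have := hcol _ _ hadj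
    rw [h1] at this
    simpa using this.symm
  have hdegE : ∀ v, (starAt v E).card ≤ Δ := by
    intro v
    refine le_trans ?_ (hdeg v)
    rw [← SimpleGraph.card_neighborFinset_eq_degree]
    refine card_le_card_of_injOn (fun e => other e v) ?_ ?_
    · intro e he
      obtain ⟨heE, hv⟩ := mem_filter.mp he
      have hadj := ((hmemE e).mp heE).1
      simp only [ends, mem_insert, mem_singleton] at hv
      simp only [Finset.mem_coe, SimpleGraph.mem_neighborFinset, other]
      rcases hv with rfl | rfl
      · simpa using hadj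
      · simpa [hadj.ne] using hadj.symm
    · intro e he f hf h
      obtain ⟨heE, hve⟩ := mem_filter.mp he
      obtain ⟨hfE, hvf⟩ := mem_filter.mp hf
      have he' := hor e heE
      have hf' := hor f hfE
      simp only [ends, mem_insert, mem_singleton] at hve hvf
      simp only [other] at h
      rcases hve with rfl | rfl <;> rcases hvf with hvf | hvf
      · rw [if_pos rfl, if_pos hvf.symm] at h
        exact Prod.ext hvf h
      · rw [hvf, hf'.2] at he'
        simp at he'
      · rw [hvf, hf'.1] at he'
        simp at he'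
      · have hne1 := hor.ne heE
        have hne2 : f.1 ≠ e.2 := hvf ▸ hor.ne hfE
        rw [if_neg hne1, if_neg hne2] at h
        exact Prod.ext h hvf
  have hprod : ∀ x : V → Ω, (∏ e ∈ H.edgeFinset,
      Sym2.lift ⟨fun a b => W (x a) (x b), fun a b => hsymm (x a) (x b)⟩ e)
        = ∏ e ∈ E, W (x e.1) (x e.2) := by
    intro x
    symm
    refine Finset.prod_bij (fun e _ => s(e.1, e.2)) ?_ ?_ ?_ (fun e _ => by simp)
    · intro e he
      exact SimpleGraph.mem_edgeFinset.mpr ((hmemE e).mp he).1
    · intro e he f hf h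
      rcases Sym2.eq_iff.mp h with ⟨h1, h2⟩ | ⟨h1, h2⟩
      · exact Prod.ext h1 h2
      · have he' := (hor e he).1
        rw [h1, (hor f hf).2] at he'
        simp at he'
    · intro e he
      induction e using Sym2.ind with
      | _ a b =>
        have hab : H.Adj a b := SimpleGraph.mem_edgeFinset.mp he
        cases ha : col a with
        | false => exact ⟨(a, b), (hmemE _).mpr ⟨hab, ha⟩, rfl⟩
        | true =>
          have hb : col b = false := by
            have := hcol _ _ hab
            rw [ha] at this
            simpa using this.symm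
          exact ⟨(b, a), (hmemE _).mpr ⟨hab.symm, hb⟩, Sym2.eq_swap⟩
  have hcard : H.edgeFinset.card = E.card := by
    symm
    refine Finset.card_bij (fun e _ => s(e.1, e.2)) ?_ ?_ ?_
    · intro e he
      exact SimpleGraph.mem_edgeFinset.mpr ((hmemE e).mp he).1
    · intro e he f hf h
      rcases Sym2.eq_iff.mp h with ⟨h1, h2⟩ | ⟨h1, h2⟩
      · exact Prod.ext h1 h2
      · have he' := (hor e he).1
        rw [h1, (hor f hf).2] at he'
        simp at he'
    · intro e he
      induction e using Sym2.ind with
      | _ a b =>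
        have hab : H.Adj a b := SimpleGraph.mem_edgeFinset.mp he
        cases ha : col a with
        | false => exact ⟨(a, b), (hmemE _).mpr ⟨hab, ha⟩, rfl⟩
        | true =>
          have hb : col b = false := by
            have := hcol _ _ hab
            rw [ha] at this
            simpa using this.symm
          exact ⟨(b, a), (hmemE _).mpr ⟨hab.symm, hb⟩, Sym2.eq_swap⟩
  simp only [hprod, hcard]
  set ε : ℝ := 1 / (600 * (Δ : ℝ)) with hε
  have hΔr : (1 : ℝ) ≤ Δ := by exact_mod_cast hΔ
  have hε0 : 0 < ε := by positivity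
  have hε1 : ε < 1 := by
    rw [hε, div_lt_one (by positivity)]
    linarith
  have hW' : ∀ᵐ z ∂(μ.prod μ), |W z.1 z.2 - p| ≤ p * ε := by
    filter_upwards [hW] with z hz
    rw [hε, mul_one_div]
    exact hz
  let W1 : Ω → Ω → ℝ := fun a b => if |W a b / p - 1| ≤ ε then W a b / p else 1
  have hW1m : Measurable (Function.uncurry W1) := by
    have hu : Measurable (fun z : Ω × Ω => W z.1 z.2 / p) := hWm.div_const p
    exact Measurable.ite (measurableSet_le (hu.sub_const 1).abs measurable_const) hu
      measurable_const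
  have hW1b : ∀ a b, |W1 a b - 1| ≤ 1 / (600 * (Δ : ℝ)) := by
    intro a b
    simp only [W1]
    split_ifs with h
    · exact h
    · simpa using hε0.le
  have hae : ∀ᵐ z ∂(μ.prod μ), W z.1 z.2 = p * W1 z.1 z.2 := by
    filter_upwards [hW'] with z hz
    rcases lt_trichotomy p 0 with hp' | hp' | hp'
    · have := abs_nonneg (W z.1 z.2 - p)
      nlinarith
    · have : W z.1 z.2 = 0 := by
        rw [hp', zero_mul, sub_zero] at hz
        exact abs_eq_zero.mp (le_antisymm hz (abs_nonneg _))
      rw [this, hp', zero_mul]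
    · have hb : |W z.1 z.2 / p - 1| ≤ ε := by
        rw [div_sub_one hp'.ne', abs_div, abs_of_pos hp', div_le_iff₀ hp', mul_comm]
        exact hz
      simp only [W1, if_pos hb]
      field_simp
  have hW1int : Integrable (fun z : Ω × Ω => W1 z.1 z.2) (μ.prod μ) :=
    integrable_of_abs_le hW1m 2 (fun z => by
      have := abs_le.mp (hW1b z.1 z.2)
      rw [← hε] at this
      exact abs_le.mpr ⟨by linarith [this.1], by linarith [this.2]⟩)
  have hWint : Integrable (fun z : Ω × Ω => W z.1 z.2) (μ.prod μ) :=
    (hW1int.const_mul p).congr (hae.mono fun z hz => hz.symm)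
  have hpeq : p = p * ∫ z, W1 z.1 z.2 ∂(μ.prod μ) := by
    rw [← integral_const_mul, ← integral_congr_ae hae, hp]
    exact integral_integral hWint
  have hmean : ∫ z, W1 z.1 z.2 ∂(μ.prod μ) = 1 := by
    rcases eq_or_ne p 0 with hp0 | hp0
    · have : ∀ z : Ω × Ω, W1 z.1 z.2 = 1 := fun z => by
        simp only [W1, hp0, div_zero, zero_sub, abs_neg, abs_one, if_neg (not_le.mpr hε1)]
      simp [this]
    · exact (mul_left_cancel₀ hp0 (by rw [mul_one]; exact hpeq.symm))
  have hkey := kernel_ge_one hW1m hΔ hW1b hmean hor hdegE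
  have hpnn : 0 ≤ p := by
    by_contra h
    obtain ⟨z, hz⟩ := hW'.exists
    have := abs_nonneg (W z.1 z.2 - p)
    nlinarith
  calc p ^ E.card = p ^ E.card * 1 := (mul_one _).symm
    _ ≤ p ^ E.card * ∫ x : V → Ω, ∏ e ∈ E, W1 (x e.1) (x e.2) ∂(Measure.pi fun _ => μ) :=
        mul_le_mul_of_nonneg_left hkey (by positivity)
    _ = _ := by
        rw [← integral_const_mul]
        refine integral_congr_ae ?_
        have hall : ∀ e ∈ E, ∀ᵐ x ∂(Measure.pi fun _ : V => μ),
            W (x e.1) (x e.2) = p * W1 (x e.1) (x e.2) := fun e he =>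
          (mp_pair (hor.ne he)).quasiMeasurePreserving.ae hae
        filter_upwards [(Finset.eventually_all E).mpr hall] with x hx
        rw [Finset.prod_congr rfl hx, prod_mul_distrib, prod_const]

end Vale.Agent.Results.P050.LocalSidorenko
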